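import Vale.Agent.P216.Ch2.Ns
import Vale.Agent.P216.Ch2.H456.PTriv
import Vale.Agent.P216.Ch2.H962.Sl
import Vale.Agent.P216.Ch2.H923B.Collapse
import Vale.Agent.P216.B64.Contract

/-!
# P216-B, [GEO] (block B43-SIGN): the families of based loops parametrised by the cube

`σ x` = (track of `x` over `D₊` backwards) * (track of `x` over `D₋`), a loop at `x₀` of time `2 ℓ`;
`sL x g = σ_x⁻¹ * g`, `sR t x g = g * σ_x`; `xx v` = the point of the boundary sphere given by the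
collapse; `FL (g, v) = sL (xx v) g`, `FR t (g, v) = sR t (xx v) g`.
-/

set_option linter.all false

namespace Vale.Agent.P216.Ch2.H456

open Set Filter Topology BoundedContinuousFunction
open Vale.Agent.P216.PS
open Vale.Agent.P216.MV337 Vale.Agent.P216.Ch2.MV337
open Vale.Agent.P216.Ch2.H962 (UM IsFm Bg Jc bJ Out Jc_sub_Bg bJ_sub isCompact_Bg)

section sig

variable {M : Type*} [MetricSpace M] {D D' : Set M} {x₀ x : M} {ℓ t u : ℝ} {Tp Tm : M → ℝ → M}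

/-- the loop `σ_x` at `x₀`, of time `2 ℓ` -/
noncomputable def sig (Tp Tm : M → ℝ → M) (ℓ : ℝ) (x : M) : ℝ → M :=
  catf ℓ (fun u => Tp x (ℓ - u)) (Tm x)

theorem sig_glue (hp : Tr D x₀ ℓ Tp) (hm : Tr D x₀ ℓ Tm) (hx : x ∈ D) :
    (fun u => Tp x (ℓ - u)) ℓ = Tm x 0 := by
  show Tp x (ℓ - ℓ) = Tm x 0
  rw [sub_self, hp.left x hx 0 le_rfl, hm.left x hx 0 le_rfl]

theorem lip_sig (hp : Tr D x₀ ℓ Tp) (hm : Tr D x₀ ℓ Tm) (hx : x ∈ D) : Lip (sig Tp Tm ℓ x) :=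
  lip_catf (hp.liprev hx) (hm.lip x hx) (sig_glue hp hm hx)

theorem sig_left (hp : Tr D x₀ ℓ Tp) (hx : x ∈ D) (hu : u ≤ 0) : sig Tp Tm ℓ x u = x₀ := by
  rw [sig, catf_left (hu.trans hp.nonneg)]
  exact hp.right x hx _ (by linarith)

theorem sig_zero (hp : Tr D x₀ ℓ Tp) (hx : x ∈ D) : sig Tp Tm ℓ x 0 = x₀ := sig_left hp hx le_rfl

theorem sig_right (hp : Tr D x₀ ℓ Tp) (hm : Tr D x₀ ℓ Tm) (hx : x ∈ D) (hu : 2 * ℓ ≤ u) :
    sig Tp Tm ℓ x u = x₀ := by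
  have := hp.nonneg
  rw [sig, catf_right (f := fun u => Tp x (ℓ - u)) (sig_glue hp hm hx) (by linarith)]
  exact hm.right x hx _ (by linarith)

/-- the middle point is `x` -/
theorem sig_mid (hp : Tr D x₀ ℓ Tp) (hx : x ∈ D) : sig Tp Tm ℓ x ℓ = x := by
  rw [sig, catf_left le_rfl, sub_self]
  exact hp.left x hx 0 le_rfl

/-- joint continuity of `σ` -/
theorem continuousOn_sig (hp : Tr D x₀ ℓ Tp) (hm : Tr D x₀ ℓ Tm) {S : Type*} [TopologicalSpace S]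
    {A : Set S} {X : S → M} {φ : S → ℝ} (hX : ContinuousOn X A) (hXD : MapsTo X A D)
    (hφ : ContinuousOn φ A) : ContinuousOn (fun s => sig Tp Tm ℓ (X s) (φ s)) A := by
  unfold sig catf
  refine PS.ContinuousOn.if_le' (hp.cont' hX hXD (continuousOn_const.sub hφ))
    (hm.cont' hX hXD (hφ.sub continuousOn_const)) hφ continuousOn_const fun s hs he => ?_
  show Tp (X s) (ℓ - φ s) = Tm (X s) (φ s - ℓ)
  rw [he, sub_self, hp.left _ (hXD hs) 0 le_rfl, hm.left _ (hXD hs) 0 le_rfl]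

variable [CompactSpace M] {g : ℝ →ᵇ M}

/-- `σ_x` as a point of `P x₀ x₀ (2 ℓ)` -/
theorem mo_sig_mem (hp : Tr D x₀ ℓ Tp) (hm : Tr D x₀ ℓ Tm) (hx : x ∈ D) :
    mo (sig Tp Tm ℓ x) ∈ P x₀ x₀ (2 * ℓ) :=
  mo_mem (lip_sig hp hm hx) (fun _ hu => sig_left hp hx hu) fun _ hu => sig_right hp hm hx hu

/-- `σ_x⁻¹ * g` -/
noncomputable def sL (Tp Tm : M → ℝ → M) (ℓ : ℝ) (x : M) (g : ℝ →ᵇ M) : ℝ →ᵇ M :=
  mo (lj (2 * ℓ) (sig Tp Tm ℓ x) g)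

/-- `g * σ_x` -/
noncomputable def sR (Tp Tm : M → ℝ → M) (ℓ t : ℝ) (x : M) (g : ℝ →ᵇ M) : ℝ →ᵇ M :=
  mo (catf t g (sig Tp Tm ℓ x))

theorem sL_apply (hp : Tr D x₀ ℓ Tp) (hm : Tr D x₀ ℓ Tm) (hx : x ∈ D) (hg : g ∈ P x₀ x₀ t)
    (u : ℝ) : sL Tp Tm ℓ x g u = lj (2 * ℓ) (sig Tp Tm ℓ x) g u :=
  (lip_lj (lip_sig hp hm hx) hg.1 ((eq_left hg le_rfl).trans (sig_zero hp hx).symm)).mo_apply u

theorem sR_apply (hp : Tr D x₀ ℓ Tp) (hm : Tr D x₀ ℓ Tm) (hx : x ∈ D) (hg : g ∈ P x₀ x₀ t)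
    (u : ℝ) : sR Tp Tm ℓ t x g u = catf t g (sig Tp Tm ℓ x) u :=
  (lip_catf hg.1 (lip_sig hp hm hx) ((eq_right hg le_rfl).trans (sig_zero hp hx).symm)).mo_apply u

theorem sL_mem (hp : Tr D x₀ ℓ Tp) (hm : Tr D x₀ ℓ Tm) (hx : x ∈ D) (ht : 0 ≤ t)
    (hg : g ∈ P x₀ x₀ t) : sL Tp Tm ℓ x g ∈ P x₀ x₀ (t + 2 * ℓ) :=
  mo_lj_mem (lip_sig hp hm hx) hg.1 ht (by linarith [hp.nonneg])
    ((eq_left hg le_rfl).trans (sig_zero hp hx).symm) (fun _ hu => sig_right hp hm hx hu) hg.2.2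

theorem sR_mem (hp : Tr D x₀ ℓ Tp) (hm : Tr D x₀ ℓ Tm) (hx : x ∈ D) (ht : 0 ≤ t)
    (hg : g ∈ P x₀ x₀ t) : sR Tp Tm ℓ t x g ∈ P x₀ x₀ (t + 2 * ℓ) := by
  have hl := hp.nonneg
  have h0 : g t = sig Tp Tm ℓ x 0 := (eq_right hg le_rfl).trans (sig_zero hp hx).symm
  refine mo_mem (lip_catf hg.1 (lip_sig hp hm hx) h0) (fun u hu => ?_) fun u hu => ?_
  · rw [catf_left (hu.trans ht), eq_left hg hu]
  · rw [catf_right h0 (by linarith)]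
    exact sig_right hp hm hx (by linarith)

/-- **(b)** the two compositions commute -/
theorem sL_sR (hp : Tr D x₀ ℓ Tp) (hm : Tr D x₀ ℓ Tm) (hx : x ∈ D) {y : M} (hy : y ∈ D)
    (ht : 0 ≤ t) (hg : g ∈ P x₀ x₀ t) :
    sL Tp Tm ℓ x (sR Tp Tm ℓ t y g) = sR Tp Tm ℓ (t + 2 * ℓ) y (sL Tp Tm ℓ x g) := by
  have hl := hp.nonneg
  have h1 := sR_mem hp hm hy ht hg
  have h2 := sL_mem hp hm hx ht hg
  ext u
  rw [sL_apply hp hm hx h1, sR_apply hp hm hy h2]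
  unfold lj catf
  by_cases h3 : u ≤ 2 * ℓ
  · rw [if_pos h3, if_pos (by linarith), sL_apply hp hm hx hg, lj_left h3]
  · rw [if_neg h3, sR_apply hp hm hy hg]
    by_cases h4 : u ≤ t + 2 * ℓ
    · rw [if_pos h4, catf_left (by linarith), sL_apply hp hm hx hg, lj, if_neg h3]
    · rw [if_neg h4, catf, if_neg (by linarith)]
      congr 1
      ring

/-- joint continuity of `sL` -/
theorem continuousOn_sL (hp : Tr D x₀ ℓ Tp) (hm : Tr D x₀ ℓ Tm) {S : Type*} [TopologicalSpace S]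
    {A : Set S} {X : S → M} {W : S → ℝ →ᵇ M} (ht : 0 ≤ t) (hX : ContinuousOn X A)
    (hW : ContinuousOn W A) (hXD : ∀ s ∈ A, X s ∈ D) (hWm : ∀ s ∈ A, W s ∈ P x₀ x₀ t) :
    ContinuousOn (fun s => sL Tp Tm ℓ (X s) (W s)) A := by
  refine continuousOn_of_eval (t := t + 2 * ℓ) (by linarith [hp.nonneg]) (fun s hs => ?_) fun u => ?_
  · exact P_subset_PP (sL_mem hp hm (hXD s hs) ht (hWm s hs))
  · refine ContinuousOn.congr (f := fun s => lj (2 * ℓ) (sig Tp Tm ℓ (X s)) (W s) u) ?_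
      fun s hs => sL_apply hp hm (hXD s hs) (hWm s hs) u
    refine continuousOn_lj u continuousOn_const (fun φ hφ => continuousOn_sig hp hm hX hXD hφ)
      (fun φ hφ => continuousOn_eval hW hφ) fun s hs => ?_
    exact (eq_left (hWm s hs) le_rfl).trans (sig_zero hp (hXD s hs)).symm

/-- joint continuity of `sR` (also in the time) -/
theorem continuousOn_sR' (hp : Tr D x₀ ℓ Tp) (hm : Tr D x₀ ℓ Tm) {S : Type*} [TopologicalSpace S]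
    {A : Set S} {X : S → M} {W : S → ℝ →ᵇ M} {τ : S → ℝ} {C : ℝ} (hX : ContinuousOn X A)
    (hW : ContinuousOn W A) (hτ : ContinuousOn τ A) (h0 : ∀ s ∈ A, 0 ≤ τ s)
    (hC : ∀ s ∈ A, τ s ≤ C) (hXD : ∀ s ∈ A, X s ∈ D) (hWm : ∀ s ∈ A, W s ∈ P x₀ x₀ (τ s)) :
    ContinuousOn (fun s => sR Tp Tm ℓ (τ s) (X s) (W s)) A := by
  refine continuousOn_of_eval (t := max 0 (C + 2 * ℓ)) (le_max_left _ _) (fun s hs => ?_) fun u => ?_
  · exact PP_mono ((by linarith [hC s hs] : τ s + 2 * ℓ ≤ C + 2 * ℓ).trans (le_max_right _ _))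
      (P_subset_PP (sR_mem hp hm (hXD s hs) (h0 s hs) (hWm s hs)))
  · refine ContinuousOn.congr (f := fun s => catf (τ s) (W s) (sig Tp Tm ℓ (X s)) u) ?_
      fun s hs => sR_apply hp hm (hXD s hs) (hWm s hs) u
    unfold catf
    refine PS.ContinuousOn.if_le' (continuousOn_eval hW continuousOn_const)
      (continuousOn_sig hp hm hX hXD (continuousOn_const.sub hτ)) continuousOn_const hτ
      fun s hs he => ?_
    rw [he, sub_self, sig_zero hp (hXD s hs), eq_right (hWm s hs) le_rfl]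

theorem continuousOn_sR (hp : Tr D x₀ ℓ Tp) (hm : Tr D x₀ ℓ Tm) {S : Type*} [TopologicalSpace S]
    {A : Set S} {X : S → M} {W : S → ℝ →ᵇ M} (ht : 0 ≤ t) (hX : ContinuousOn X A)
    (hW : ContinuousOn W A) (hXD : ∀ s ∈ A, X s ∈ D) (hWm : ∀ s ∈ A, W s ∈ P x₀ x₀ t) :
    ContinuousOn (fun s => sR Tp Tm ℓ t (X s) (W s)) A :=
  continuousOn_sR' (C := t) hp hm hX hW continuousOn_const (fun _ _ => ht) (fun _ _ => le_rfl)
    hXD hWm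

/-- **(d)** for the path fibration -/
theorem lcut_lback (hp : Tr D x₀ ℓ Tp) (hm : Tr D x₀ ℓ Tm) (hx : x ∈ D) (ht : 0 ≤ t)
    (hg : g ∈ P x₀ x₀ t) : lcut Tm ℓ (lback Tp ℓ (x, g)) = sL Tp Tm ℓ x g := by
  have hn := hp.nonneg
  have h0 : lback Tp ℓ (x, g) 0 = x := lback_zero hp ht hx hg
  have e0 : g 0 = (fun u => Tp x (ℓ - u)) 0 := by
    show g 0 = Tp x (ℓ - 0)
    rw [sub_zero, hp.right _ hx _ le_rfl, eq_left hg le_rfl]
  unfold lcut sL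
  congr 1
  rw [h0]
  funext u
  have e1 : (fun u => (lback Tp ℓ (x, g)) u) = lj ℓ (fun u => Tp x (ℓ - u)) g := by
    funext u
    exact lback_apply (p := (x, g)) hp hx hg u
  show lj ℓ (Tm x) (fun u => (lback Tp ℓ (x, g)) u) u = _
  rw [e1, lj_lj hn hn e0 (sig_glue hp hm hx), two_mul]
  rfl

/-- **(d)** for the free loops -/
theorem cut_back (hp : Tr D x₀ ℓ Tp) (hm : Tr D x₀ ℓ Tm) (hx : x ∈ D) (ht : 0 ≤ t)
    (hg : g ∈ P x₀ x₀ t) :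
    cut Tm ℓ (t + 2 * ℓ) (back Tp ℓ t (x, g)) = sR Tp Tm ℓ (t + 2 * ℓ) x (sL Tp Tm ℓ x g) := by
  have hn := hp.nonneg
  have h0 : back Tp ℓ t (x, g) 0 = x := hp.back_zero ht hx hg
  have e0 : g 0 = (fun u => Tp x (ℓ - u)) 0 := by
    show g 0 = Tp x (ℓ - 0)
    rw [sub_zero, hp.right _ hx _ le_rfl, eq_left hg le_rfl]
  have e0' : g t = (fun u => Tp x (ℓ - u)) 0 := by
    show g t = Tp x (ℓ - 0)
    rw [sub_zero, hp.right _ hx _ le_rfl, eq_right hg le_rfl]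
  unfold cut sR
  congr 1
  rw [h0]
  funext u
  have e1 : (fun u => (back Tp ℓ t (x, g)) u) = cj ℓ t (fun u => Tp x (ℓ - u)) g := by
    funext u
    exact (lip_cj (hp.liprev hx) hg.1 ht e0 e0').mo_apply u
  show cj ℓ (t + 2 * ℓ) (Tm x) (fun u => (back Tp ℓ t (x, g)) u) u = _
  rw [e1, cj_cj (q := fun u => Tp x (ℓ - u)) (q' := Tm x) ht hn hn e0 e0' (sig_glue hp hm hx)
    (fun u hu => by
      show Tp x (ℓ - u) = Tp x (ℓ - ℓ)
      rw [sub_self, hp.left _ hx _ (by linarith), hp.left _ hx 0 le_rfl])]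
  show cj (ℓ + ℓ) t (sig Tp Tm ℓ x) g u = catf (t + 2 * ℓ) (sL Tp Tm ℓ x g) (sig Tp Tm ℓ x) u
  rw [← two_mul]
  unfold cj catf
  by_cases h3 : u ≤ 2 * ℓ
  · rw [if_pos h3, if_pos (by linarith), sL_apply hp hm hx hg, lj_left h3]
  · rw [if_neg h3]
    by_cases h4 : u ≤ 2 * ℓ + t
    · rw [if_pos h4, if_pos (by linarith), sL_apply hp hm hx hg, lj, if_neg h3]
    · rw [if_neg h4, if_neg (by linarith)]
      congr 1
      ring

end sig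

/-! ### The families -/

/-- The data of the collapse of `∂J^{m+1}` off a small part of the top face. -/
structure Coll (m : ℕ) (D : ℝ → (Fin (m + 1) → ℝ) → (Fin (m + 1) → ℝ)) (b : Fin (m + 1) → ℝ) :
    Prop where
  b_mem : b ∈ bJ (m + 1)
  cont : ContinuousOn (fun p : ℝ × (Fin (m + 1) → ℝ) => D p.1 p.2) (Icc 0 1 ×ˢ bJ (m + 1))
  maps : ∀ s ∈ Icc (0 : ℝ) 1, MapsTo (D s) (bJ (m + 1)) (bJ (m + 1))
  zero : ∀ y ∈ bJ (m + 1), D 0 y = y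
  one : ∀ y ∈ bJ (m + 1),
    (y (Fin.last m) ≠ 1 ∨ ∃ i : Fin m, 1 / 8 ≤ |y i.castSucc - 1 / 2|) → D 1 y = b

theorem exists_coll (m : ℕ) : ∃ D b, Coll m D b := by
  obtain ⟨D, b, h1, h2, h3, h4, h5⟩ := H923B.collapse m
  exact ⟨D, b, h1, h2, h3, h4, h5⟩

/-- coordinates clamped to `[0, 1]` -/
noncomputable def clamp {m : ℕ} (v : Fin m → ℝ) : Fin m → ℝ := fun i => max 0 (min 1 (v i))

/-- the point of the top face -/
noncomputable def topv {m : ℕ} (v : Fin m → ℝ) : Fin (m + 1) → ℝ := Fin.snoc (clamp v) 1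

theorem clamp_mem {m : ℕ} (v : Fin m → ℝ) (i : Fin m) : clamp v i ∈ Icc (0 : ℝ) 1 :=
  ⟨le_max_left _ _, max_le zero_le_one (min_le_left _ _)⟩

theorem clamp_self {m : ℕ} {v : Fin m → ℝ} (h : ∀ i, v i ∈ Icc (0 : ℝ) 1) : clamp v = v := by
  funext i
  rw [clamp, min_eq_right (h i).2, max_eq_right (h i).1]

theorem topv_mem {m : ℕ} (v : Fin m → ℝ) : topv v ∈ bJ (m + 1) := by
  refine ⟨fun i => ?_, Fin.last m, Or.inr (Fin.snoc_last _ _)⟩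
  refine Fin.lastCases ?_ (fun i => ?_) i
  · rw [topv, Fin.snoc_last]
    exact ⟨zero_le_one, le_rfl⟩
  · rw [topv, Fin.snoc_castSucc]
    exact clamp_mem v i

theorem continuous_topv {m : ℕ} : Continuous (topv : (Fin m → ℝ) → Fin (m + 1) → ℝ) := by
  rw [continuous_pi_iff]
  intro i
  refine Fin.lastCases ?_ (fun i => ?_) i
  · have e : (fun v : Fin m → ℝ => topv v (Fin.last m)) = fun _ => (1 : ℝ) := by
      funext v
      exact Fin.snoc_last _ _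
    rw [e]
    exact continuous_const
  · have e : (fun v : Fin m → ℝ => topv v i.castSucc) = fun v => max 0 (min 1 (v i)) := by
      funext v
      exact Fin.snoc_castSucc (α := fun _ => ℝ) _ _ _
    rw [e]
    fun_prop

theorem out_clamp {m : ℕ} {v : Fin m → ℝ} (h : Out v) : ∃ i : Fin m, 1 / 8 ≤ |clamp v i - 1 / 2| := by
  obtain ⟨i, hi⟩ := h
  refine ⟨i, ?_⟩
  rw [le_abs] at hi
  unfold clamp
  rcases hi with hi | hi
  · rw [le_abs]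
    left
    rcases le_total 1 (v i) with h1 | h1
    · rw [min_eq_left h1, max_eq_right zero_le_one]; norm_num
    · rw [min_eq_right h1, max_eq_right (by linarith)]; exact hi
  · rw [le_abs]
    right
    rcases le_total 0 (v i) with h1 | h1
    · rw [min_eq_right (by linarith), max_eq_right h1]; linarith
    · rw [min_eq_right (by linarith), max_eq_left h1]; norm_num

variable {M : Type} [MetricSpace M] [CompactSpace M] {x₀ : M} {ℓ t : ℝ} {Tp Tm : M → ℝ → M} {m : ℕ}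
  {D : ℝ → (Fin (m + 1) → ℝ) → (Fin (m + 1) → ℝ)} {b : Fin (m + 1) → ℝ}

/-- the point of `D₊ ∩ D₋` with parameter `v` -/
noncomputable def xx (C : Caps (m + 1) M x₀) (D : ℝ → (Fin (m + 1) → ℝ) → (Fin (m + 1) → ℝ))
    (v : Fin m → ℝ) : M := C.ψ (D 1 (topv v))

omit [CompactSpace M] in
theorem psi_mem_pm (C : Caps (m + 1) M x₀) {y : Fin (m + 1) → ℝ} (hy : y ∈ bJ (m + 1)) :
    C.ψ y ∈ C.Dp ∩ C.Dm := by
  have h1 := C.ψ_mem y hy.1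
  refine ⟨h1, ?_⟩
  rw [C.bdry _ h1, C.φψ _ hy.1]
  exact hy.2

omit [CompactSpace M] in
theorem xx_mem (C : Caps (m + 1) M x₀) (h : Coll m D b) (v : Fin m → ℝ) :
    xx C D v ∈ C.Dp ∩ C.Dm := psi_mem_pm C (h.maps 1 ⟨zero_le_one, le_rfl⟩ (topv_mem v))

omit [CompactSpace M] in
theorem xb_mem (C : Caps (m + 1) M x₀) (h : Coll m D b) : C.ψ b ∈ C.Dp ∩ C.Dm :=
  psi_mem_pm C h.b_mem

omit [CompactSpace M] in
theorem xx_out (C : Caps (m + 1) M x₀) (h : Coll m D b) {v : Fin m → ℝ} (hv : Out v) :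
    xx C D v = C.ψ b := by
  obtain ⟨i, hi⟩ := out_clamp hv
  rw [xx, h.one _ (topv_mem v) (Or.inr ⟨i, by rw [topv, Fin.snoc_castSucc]; exact hi⟩)]

omit [CompactSpace M] in
theorem continuous_xx (C : Caps (m + 1) M x₀) (h : Coll m D b) : Continuous (xx C D) := by
  have h1 : Continuous fun v : Fin m → ℝ => D 1 (topv v) := by
    rw [← continuousOn_univ]
    exact h.cont.comp (continuousOn_const.prodMk continuous_topv.continuousOn)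
      fun v _ => ⟨⟨zero_le_one, le_rfl⟩, topv_mem v⟩
  rw [← continuousOn_univ]
  exact C.ψ_cont.comp h1.continuousOn fun v _ =>
    (h.maps 1 ⟨zero_le_one, le_rfl⟩ (topv_mem v)).1

/-- `(g, v) ↦ σ_v⁻¹ * g` -/
noncomputable def FmL (C : Caps (m + 1) M x₀) (Tp Tm : M → ℝ → M) (ℓ : ℝ)
    (D : ℝ → (Fin (m + 1) → ℝ) → (Fin (m + 1) → ℝ)) (p : (ℝ →ᵇ M) × (Fin m → ℝ)) : ℝ →ᵇ M :=
  sL Tp Tm ℓ (xx C D p.2) p.1

/-- `(g, v) ↦ g * σ_v` -/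
noncomputable def FmR (C : Caps (m + 1) M x₀) (Tp Tm : M → ℝ → M) (ℓ : ℝ)
    (D : ℝ → (Fin (m + 1) → ℝ) → (Fin (m + 1) → ℝ)) (t : ℝ) (p : (ℝ →ᵇ M) × (Fin m → ℝ)) : ℝ →ᵇ M :=
  sR Tp Tm ℓ t (xx C D p.2) p.1

variable {C : Caps (m + 1) M x₀}

/-- **(a)** -/
theorem isFm_L (hp : Tr C.Dp x₀ ℓ Tp) (hm : Tr C.Dm x₀ ℓ Tm) (h : Coll m D b) (ht : 0 ≤ t) :
    IsFm (P x₀ x₀ t) (P x₀ x₀ (t + 2 * ℓ)) (FmL C Tp Tm ℓ D) (sL Tp Tm ℓ (C.ψ b)) := by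
  have hp' := hp.mono (D := C.Dp ∩ C.Dm) inter_subset_left
  have hm' := hm.mono (D := C.Dp ∩ C.Dm) inter_subset_right
  refine ⟨UM.of_compact ((isCompact_P _ _ _).prod (isCompact_Bg m)) ?_ fun p hq => ?_,
    fun g hg v hv ho => ?_⟩
  · exact continuousOn_sL hp' hm' ht ((continuous_xx C h).comp_continuousOn continuousOn_snd)
      continuousOn_fst (fun p _ => xx_mem C h p.2) fun p hq => hq.1
  · exact sL_mem hp' hm' (xx_mem C h p.2) ht hq.1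
  · show sL Tp Tm ℓ (xx C D v) g = _
    rw [xx_out C h ho]

/-- **(a)** -/
theorem isFm_R (hp : Tr C.Dp x₀ ℓ Tp) (hm : Tr C.Dm x₀ ℓ Tm) (h : Coll m D b) (ht : 0 ≤ t) :
    IsFm (P x₀ x₀ t) (P x₀ x₀ (t + 2 * ℓ)) (FmR C Tp Tm ℓ D t) (sR Tp Tm ℓ t (C.ψ b)) := by
  have hp' := hp.mono (D := C.Dp ∩ C.Dm) inter_subset_left
  have hm' := hm.mono (D := C.Dp ∩ C.Dm) inter_subset_right
  refine ⟨UM.of_compact ((isCompact_P _ _ _).prod (isCompact_Bg m)) ?_ fun p hq => ?_,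
    fun g hg v hv ho => ?_⟩
  · exact continuousOn_sR hp' hm' ht ((continuous_xx C h).comp_continuousOn continuousOn_snd)
      continuousOn_fst (fun p _ => xx_mem C h p.2) fun p hq => hq.1
  · exact sR_mem hp' hm' (xx_mem C h p.2) ht hq.1
  · show sR Tp Tm ℓ t (xx C D v) g = _
    rw [xx_out C h ho]

/-- **(b)** -/
theorem FmL_FmR (hp : Tr C.Dp x₀ ℓ Tp) (hm : Tr C.Dm x₀ ℓ Tm) (h : Coll m D b) (ht : 0 ≤ t)
    {g : ℝ →ᵇ M} (hg : g ∈ P x₀ x₀ t) (v w : Fin m → ℝ) :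
    FmL C Tp Tm ℓ D (FmR C Tp Tm ℓ D t (g, w), v) =
      FmR C Tp Tm ℓ D (t + 2 * ℓ) (FmL C Tp Tm ℓ D (g, v), w) :=
  sL_sR (hp.mono (D := C.Dp ∩ C.Dm) inter_subset_left)
    (hm.mono (D := C.Dp ∩ C.Dm) inter_subset_right) (xx_mem C h v) (xx_mem C h w) ht hg

/-- **(b)** for the base point families -/
theorem sL_sR_b (hp : Tr C.Dp x₀ ℓ Tp) (hm : Tr C.Dm x₀ ℓ Tm) (h : Coll m D b) (ht : 0 ≤ t)
    {g : ℝ →ᵇ M} (hg : g ∈ P x₀ x₀ t) :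
    sL Tp Tm ℓ (C.ψ b) (sR Tp Tm ℓ t (C.ψ b) g) =
      sR Tp Tm ℓ (t + 2 * ℓ) (C.ψ b) (sL Tp Tm ℓ (C.ψ b) g) :=
  sL_sR (hp.mono (D := C.Dp ∩ C.Dm) inter_subset_left)
    (hm.mono (D := C.Dp ∩ C.Dm) inter_subset_right) (xb_mem C h) (xb_mem C h) ht hg

/-- reversal of based loops -/
theorem revP_mem {f : (ℝ →ᵇ M) → (ℝ →ᵇ M)} (hf : B64.RevP t f) {g : ℝ →ᵇ M}
    (hg : g ∈ P x₀ x₀ t) : f g ∈ P x₀ x₀ t := by
  refine ⟨fun u v => ?_, fun u hu => ?_, fun u hu => ?_⟩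
  · rw [hf, hf]
    refine (hg.1 _ _).trans (le_of_eq ?_)
    rw [abs_sub_comm u v]
    congr 1
    ring
  · rw [hf, eq_right hg (by linarith)]
  · rw [hf, eq_left hg (by linarith)]

/-- **(c)** reversal exchanges the two compositions -/
theorem rev_sL (hp : Tr C.Dp x₀ ℓ Tp) (hm : Tr C.Dm x₀ ℓ Tm) {x : M} (hx : x ∈ C.Dp ∩ C.Dm)
    (ht : 0 ≤ t) {f f' : (ℝ →ᵇ M) → (ℝ →ᵇ M)} (hf : B64.RevP t f)
    (hf' : B64.RevP (t + 2 * ℓ) f') {g : ℝ →ᵇ M} (hg : g ∈ P x₀ x₀ t) :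
    f' (sL Tp Tm ℓ x (f g)) = sR Tp Tm ℓ t x g := by
  have hp' := hp.mono (D := C.Dp ∩ C.Dm) inter_subset_left
  have hm' := hm.mono (D := C.Dp ∩ C.Dm) inter_subset_right
  have h1 := revP_mem hf hg
  have h0 : (f g) 0 = sig Tp Tm ℓ x 0 := (eq_left h1 le_rfl).trans (sig_zero hp' hx).symm
  have h0' : g t = sig Tp Tm ℓ x 0 := (eq_right hg le_rfl).trans (sig_zero hp' hx).symm
  ext u
  rw [hf', sL_apply hp' hm' hx h1, sR_apply hp' hm' hx hg]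
  rcases le_total u t with h2 | h2
  · rw [lj_right h0 (by linarith), catf_left h2, hf]
    congr 1
    ring
  · rw [lj_left (by linarith), catf_right h0' h2]
    congr 1
    ring

theorem rev_FmL (hp : Tr C.Dp x₀ ℓ Tp) (hm : Tr C.Dm x₀ ℓ Tm) (h : Coll m D b)
    (ht : 0 ≤ t) {f f' : (ℝ →ᵇ M) → (ℝ →ᵇ M)} (hf : B64.RevP t f)
    (hf' : B64.RevP (t + 2 * ℓ) f') {g : ℝ →ᵇ M} (hg : g ∈ P x₀ x₀ t) (v : Fin m → ℝ) :
    f' (FmL C Tp Tm ℓ D (f g, v)) = FmR C Tp Tm ℓ D t (g, v) :=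
  rev_sL hp hm (xx_mem C h v) ht hf hf' hg

/-- **(d)** -/
theorem lcut_lback_xx (hp : Tr C.Dp x₀ ℓ Tp) (hm : Tr C.Dm x₀ ℓ Tm) (ht : 0 ≤ t)
    {y : Fin (m + 1) → ℝ} (hy : y ∈ bJ (m + 1)) {g : ℝ →ᵇ M} (hg : g ∈ P x₀ x₀ t) :
    lcut Tm ℓ (lback Tp ℓ (C.ψ y, g)) = sL Tp Tm ℓ (C.ψ y) g :=
  lcut_lback (hp.mono (D := C.Dp ∩ C.Dm) inter_subset_left)
    (hm.mono (D := C.Dp ∩ C.Dm) inter_subset_right) (psi_mem_pm C hy) ht hg

/-- **(d)** -/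
theorem cut_back_xx (hp : Tr C.Dp x₀ ℓ Tp) (hm : Tr C.Dm x₀ ℓ Tm) (ht : 0 ≤ t)
    {y : Fin (m + 1) → ℝ} (hy : y ∈ bJ (m + 1)) {g : ℝ →ᵇ M} (hg : g ∈ P x₀ x₀ t) :
    cut Tm ℓ (t + 2 * ℓ) (back Tp ℓ t (C.ψ y, g)) =
      sR Tp Tm ℓ (t + 2 * ℓ) (C.ψ y) (sL Tp Tm ℓ (C.ψ y) g) :=
  cut_back (hp.mono (D := C.Dp ∩ C.Dm) inter_subset_left)
    (hm.mono (D := C.Dp ∩ C.Dm) inter_subset_right) (psi_mem_pm C hy) ht hg

end Vale.Agent.P216.Ch2.H456
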